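import Vale.Agent.P219.Relax.PairKernel

/-!
# P219: the pair integrand of an arbitrary symmetrised kernel

The line and the pair integral only use that the kernel `K` is continuous and is at least `-ε`
where a cosine vanishes, so they hold for `sym` less a slack as well.
-/

noncomputable section

open MeasureTheory Set Filter Topology Matrix
open scoped ENNReal

namespace Vale.Agent.P219.CH.Relax.Strict

open Gen (measurable_scos scos_mem_Icc)

variable {n : ℕ} {G : (Fin n → ℝ) → Matrix (Fin n) (Fin n) ℝ}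
  {D : (Fin n → ℝ) → (Fin n → ℝ) → ℝ} {u : (Fin n → ℝ) → ℝ} {K : ℝ × ℝ × ℝ → ℝ}
  {s ε T : ℝ} {o : Fin n → ℝ} {R : ℝ}

/-- A kernel per unit of the two slopes along a geodesic. -/
def phiK (n : ℕ) (ε : ℝ) (K : ℝ × ℝ × ℝ → ℝ) (r c d : ℝ) : ℝ :=
  Real.sinh r ^ (n - 1) * (K (r, c, d) + ε) / |c * d|

/-- `phiK` of two crossings, in the conventions of `crossPhi`. -/
def crossK (n : ℕ) (ε : ℝ) (K : ℝ × ℝ × ℝ → ℝ) (g : ℝ → ℝ) (σ : ℝ) (c : ℝ → ℝ) (t t' : ℝ) : ℝ :=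
  phiK n ε K (σ * |t' - t|) (Real.sign (deriv g (min t t')) * c (min t t'))
    (-(Real.sign (deriv g (max t t')) * c (max t t')))

/-- The inequality for two levels on a whole line with the kernel `K`. -/
def LineK (n : ℕ) (a : ℝ → ℝ) (β ε T : ℝ) (K : ℝ × ℝ × ℝ → ℝ) : Prop :=
  ∀ (g : ℝ → ℝ) (σ lo hi : ℝ) (S U : Finset ℝ) (c : ℝ → ℝ),
    ContDiff ℝ 1 g → HasCompactSupport g → 0 < σ → 0 < lo → lo < hi → hi < 1 →
    (∀ t, t ∈ S ↔ g t = lo) → (∀ t, t ∈ U ↔ g t = hi) →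
    (∀ t ∈ S ∪ U, deriv g t ≠ 0) → (∀ t ∈ S ∪ U, c t ∈ Ioc (0 : ℝ) 1) →
    (∀ t ∈ S ∪ U, ∀ t' ∈ S ∪ U, σ * |t' - t| ≤ T) →
    ∑ t ∈ S, (a (c t) / c t - ε) + ∑ t ∈ U, (a (c t) / c t - ε) +
        4 * β * σ * (volume {t | hi < g t}).toReal ≤
      ∑ t ∈ S, ∑ t' ∈ U, crossK n ε K g σ c t t'

/-- The kernel is nonnegative up to `ε` where a cosine vanishes. -/
def CritK (ε T : ℝ) (K : ℝ × ℝ × ℝ → ℝ) : Prop :=
  ∀ r c d, r ∈ Icc 0 T → c ∈ Icc (-1 : ℝ) 1 → d ∈ Icc (-1 : ℝ) 1 → c * d = 0 → -ε ≤ K (r, c, d)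

/-- The kernel of a pair at scale `s` with the two densities of perimeter. -/
def pairK (G : (Fin n → ℝ) → Matrix (Fin n) (Fin n) ℝ) (D : (Fin n → ℝ) → (Fin n → ℝ) → ℝ)
    (u : (Fin n → ℝ) → ℝ) (K : ℝ × ℝ × ℝ → ℝ) (s ε : ℝ) (x y : Fin n → ℝ) : ℝ :=
  (K (s * Real.sqrt (2 * D x y), Dir.scos G D u y x, Dir.scos G D u x y) + ε) *
    (conorm G x (cd u x) * conorm G y (cd u y))

lemma measurable_phiK (hK : Continuous K) :
    Measurable fun q : ℝ × ℝ × ℝ => phiK n ε K q.1 q.2.1 q.2.2 := by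
  have h1 : Measurable fun q : ℝ × ℝ × ℝ => K q + ε := hK.measurable.add_const ε
  have h2 : Measurable fun q : ℝ × ℝ × ℝ => Real.sinh q.1 ^ (n - 1) := by fun_prop
  have h3 : Measurable fun q : ℝ × ℝ × ℝ => |q.2.1 * q.2.2| := by fun_prop
  exact (h2.mul h1).div h3

lemma measurable_arg (h : IsCH G D) (hu : ContDiff ℝ 1 u) :
    Measurable fun z : (Fin n → ℝ) × (Fin n → ℝ) =>
      (s * Real.sqrt (2 * D z.1 z.2), Dir.scos G D u z.2 z.1, Dir.scos G D u z.1 z.2) := by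
  have hd := measurable_scos h hu
  have hc : Measurable fun z : (Fin n → ℝ) × (Fin n → ℝ) => Dir.scos G D u z.2 z.1 := by
    simpa only [Function.comp_def, Prod.fst_swap, Prod.snd_swap] using
      hd.comp (measurable_swap (α := Fin n → ℝ) (β := Fin n → ℝ))
  exact (((h.continuous_D.measurable.const_mul 2).sqrt).const_mul s).prodMk (hc.prodMk hd)

lemma measurable_pairK (h : IsCH G D) (hu : ContDiff ℝ 1 u) (hK : Continuous K) :
    Measurable fun z : (Fin n → ℝ) × (Fin n → ℝ) => pairK G D u K s ε z.1 z.2 :=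
  ((hK.measurable.comp (measurable_arg h hu)).add_const ε).fun_mul
    (((h.continuous_conorm_cd hu).measurable.comp measurable_fst).fun_mul
      ((h.continuous_conorm_cd hu).measurable.comp measurable_snd))

/-- Where a cosine vanishes the kernel is nonnegative. -/
lemma pairK_nonneg_of_crit (h : IsCH G D) (hu : Comp {y | D o y ≤ R} u) (hs : 0 ≤ s)
    (hT : ∀ x y, D o x ≤ R → D o y ≤ R → s * Real.sqrt (2 * D x y) ≤ T)
    (hC : CritK ε T K) (x y : Fin n → ℝ)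
    (hcrit : Dir.scos G D u y x = 0 ∨ Dir.scos G D u x y = 0) :
    0 ≤ pairK G D u K s ε x y := by
  by_cases hx : D o x ≤ R
  swap
  · simp [pairK, conorm_eq_zero_out hu hx]
  by_cases hy : D o y ≤ R
  swap
  · simp [pairK, conorm_eq_zero_out hu hy]
  refine mul_nonneg ?_ (mul_nonneg (conorm_nonneg _ _) (conorm_nonneg _ _))
  have := hC _ _ _ ⟨mul_nonneg hs (Real.sqrt_nonneg _), hT x y hx hy⟩
    (scos_mem_Icc h u y x) (scos_mem_Icc h u x y) (mul_eq_zero.2 hcrit)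
  linarith

end Vale.Agent.P219.CH.Relax.Strict
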