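import Vale.Agent.P219.Relax.PairLine
import Vale.Agent.P219.Relax.Strict.Kernel

/-!
# P219: the two-level inequality along one geodesic for an arbitrary kernel
-/

noncomputable section

open MeasureTheory Set Filter Topology Matrix
open scoped ENNReal

namespace Vale.Agent.P219.CH.Relax.Strict

open Six (slp cosv vnorm flow line)
open Gen (gl pairW)
open LineInt (ordInt)

variable {n : ℕ} {G : (Fin n → ℝ) → Matrix (Fin n) (Fin n) ℝ}
  {D : (Fin n → ℝ) → (Fin n → ℝ) → ℝ} {e : Six.Phase n → Fin n → ℝ}
  {u : (Fin n → ℝ) → ℝ} {K : ℝ × ℝ × ℝ → ℝ} {s ε T η β : ℝ} {a : ℝ → ℝ}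
  {o : Fin n → ℝ} {R : ℝ}

/-- The inequality along one geodesic. -/
theorem line_le (hflow : Six.FlowPin n) (h : IsCH G D) (he : Six.IsExp G D e)
    (hu : Comp {y | D o y ≤ R} u) (ha : Measurable a) (hK : Continuous K) (hs : 0 < s)
    (hβ : 0 ≤ β) (hη : 0 < η) (hη1 : η < 1)
    (hT : ∀ x y, D o x ≤ R → D o y ≤ R → s * Real.sqrt (2 * D x y) ≤ T)
    (hG : CritK ε T K) (hL : LineK n a β ε T K) (p : Six.Phase n) (hp : p.2 ≠ 0) :
    ∫⁻ t, (ENNReal.ofReal (s ^ (n - 1)) *
          halfInt G e s (fun x y => -pairK G D u K s ε x y) (flow e t p) +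
        ENNReal.ofReal (2 * β * s * (1 - η) ^ 2) *
          {x | 1 - η < u x}.indicator 1 (flow e t p).1) ≤
      ∫⁻ t, (ENNReal.ofReal (s ^ (n - 1)) *
          halfInt G e s (pairK G D u K s ε) (flow e t p) +
        wtBoth G u a ε (flow e t p)) := by
  have hpin := hflow
  obtain ⟨hsymm, -, h0, -, hcomp, -, hN, hD, -, hcont, -, -⟩ := hflow G D e h he
  obtain ⟨N, hNd⟩ : ∃ N, N = vnorm G p.1 p.2 := ⟨_, rfl⟩
  have hN0 : 0 < N := hNd ▸ h.vnorm_pos hp
  set g : ℝ → ℝ := gl e u p
  set c : ℝ → ℝ := fun t => cosv G u (flow e t p)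
  set k : ℝ → ℝ := fun t => conorm G (line e p t) (cd u (line e p t))
  have hgC : ContDiff ℝ 1 g := Gen.contDiff_gl he hu.1 p
  have hgK : HasCompactSupport g := Gen.hasCompactSupport_gl hpin h he hu p hp
  have hdg : ∀ t, deriv g t = slp u (flow e t p) := fun t => by
    show deriv (gl e u p) t = _
    rw [Gen.deriv_gl hpin h he hu.1]
  have hN' : ∀ t, vnorm G (flow e t p).1 (flow e t p).2 = N := fun t => by rw [hN, hNd]
  have hc : ∀ t, c t = |deriv g t| / (k t * N) := fun t => by
    simp only [c, cosv, hN' t, hdg]; rfl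
  have hdle : ∀ t, |deriv g t| ≤ k t * N := fun t => by
    have := h.dotProduct_le (flow e t p).1 (cd u (flow e t p).1) (flow e t p).2
    rw [hN' t] at this
    rw [hdg]
    exact this
  have hk0 : ∀ t, 0 ≤ k t := fun t => conorm_nonneg _ _
  set Ψ : ℝ → ℝ → ℝ := fun x y => crossK n ε K g (s * N) c x y / N
  have hΨeq : ∀ x y, Ψ x y = phiK n ε K (s * N * |y - x|)
      (deriv g (min x y) / (k (min x y) * N)) (-deriv g (max x y) / (k (max x y) * N)) / N :=
    fun x y => by simp only [Ψ, crossK, hc, sign_mul_abs_div, neg_div]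
  have hΨm : Measurable (Function.uncurry Ψ) := by
    have e1 : Function.uncurry Ψ = fun z : ℝ × ℝ => phiK n ε K (s * N * |z.2 - z.1|)
        (deriv g (min z.1 z.2) / (k (min z.1 z.2) * N))
        (-deriv g (max z.1 z.2) / (k (max z.1 z.2) * N)) / N := funext fun z => hΨeq z.1 z.2
    have hkc : Continuous k := (h.continuous_conorm_cd hu.1).comp
      (he.continuous_line.comp (continuous_const.prodMk continuous_id))
    have hdm := (measurable_deriv g)
    have hkm := hkc.measurable
    rw [e1]
    exact ((measurable_phiK hK).comp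
      ((by fun_prop : Measurable fun z : ℝ × ℝ => s * N * |z.2 - z.1|).prodMk
      (((hdm.comp (measurable_fst.min measurable_snd)).div
        ((hkm.comp (measurable_fst.min measurable_snd)).mul_const N)).prodMk
      ((hdm.comp (measurable_fst.max measurable_snd)).neg.div
        ((hkm.comp (measurable_fst.max measurable_snd)).mul_const N))))).div_const N
  have hΨs : ∀ x y, Ψ x y = Ψ y x := fun x y => by
    simp only [Ψ, crossK, min_comm x y, max_comm x y, abs_sub_comm x y]
  have hwm : Measurable fun t => (ε + -a (c t) / c t) / N := by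
    have hcm : Measurable c := by
      have e1 : c = fun t => |deriv g t| / (k t * N) := funext hc
      rw [e1]
      exact (measurable_deriv g).abs.div ((((h.continuous_conorm_cd hu.1).comp
        (he.continuous_line.comp (continuous_const.prodMk continuous_id))).measurable).mul_const N)
    exact (((ha.comp hcm).neg.div hcm).const_add ε).div_const N
  have hin : ∀ t, g t ≠ 0 → D o (line e p t) ≤ R := fun t ht =>
    hu.2.1 (subset_tsupport u ht)
  have key := LineInt.lines_le hgC hgK (fun t => hu.2.2 _) hΨm hΨs hwm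
    (mul_nonneg (mul_nonneg (by norm_num : (0 : ℝ) ≤ 4) hβ) hs.le : 0 ≤ 4 * β * s) hη hη1
    fun lo hi S U h0lo hlh h1 hS hU hne => by
      have hmem : ∀ t ∈ S ∪ U, g t ≠ 0 := fun t ht => by
        rcases Finset.mem_union.1 ht with ht | ht
        · rw [(hS t).1 ht]; exact h0lo.ne'
        · rw [(hU t).1 ht]; exact (h0lo.trans hlh).ne'
      have hcr : ∀ t ∈ S ∪ U, c t ∈ Ioc (0 : ℝ) 1 := fun t ht => by
        have hd0 := abs_pos.2 (hne t ht)
        rw [hc]
        exact ⟨div_pos hd0 (hd0.trans_le (hdle t)),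
          (div_le_one (hd0.trans_le (hdle t))).2 (hdle t)⟩
      have hrange : ∀ t ∈ S ∪ U, ∀ t' ∈ S ∪ U, s * N * |t' - t| ≤ T := fun t ht t' ht' => by
        have h1 := hT _ _ (hin t (hmem t ht)) (hin t' (hmem t' ht'))
        have e2 : D (line e p t) (line e p t') = (t' - t) ^ 2 * N ^ 2 / 2 := by
          have := hD (flow e t p) (t' - t)
          rw [hN' t] at this
          rw [← this]
          show D (flow e t p).1 _ = D (flow e t p).1 (flow e (t' - t) (flow e t p)).1
          rw [hcomp]
          simp [Six.flow, Six.line]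
        rw [e2, show 2 * ((t' - t) ^ 2 * N ^ 2 / 2) = ((t' - t) * N) ^ 2 by ring,
          Real.sqrt_sq_eq_abs, abs_mul, abs_of_pos hN0] at h1
        linarith
      have := div_le_div_of_nonneg_right (hL g (s * N) lo hi S U c hgC hgK (mul_pos hs hN0) h0lo
        hlh h1 hS hU hne hcr hrange) hN0.le
      refine le_trans (le_of_eq ?_) (this.trans (le_of_eq ?_))
      · rw [add_div, add_div, Finset.sum_div, Finset.sum_div]
        congr 1
        · congr 1 <;> exact Finset.sum_congr rfl fun t _ => by ring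
        · field_simp
      · simp only [Finset.sum_div]; rfl
  set O : Set (Fin n → ℝ) := {x | 1 - η < u x}
  have hOm : Measurable fun t => (O.indicator 1 (flow e t p).1 : ℝ≥0∞) :=
    (measurable_one.indicator (isOpen_lt continuous_const hu.1.continuous).measurableSet).comp
      ((hcont.comp (continuous_id.prodMk continuous_const)).fst.measurable)
  have eO : ∫⁻ t, ENNReal.ofReal (2 * β * s * (1 - η) ^ 2) * O.indicator 1 (flow e t p).1 =
      ENNReal.ofReal (4 * β * s * ((1 - η) ^ 2 / 2)) * volume {t | 1 - η < g t} := by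
    rw [lintegral_const_mul _ hOm]
    congr 1
    · congr 1; ring
    · rw [← lintegral_indicator_one (isOpen_lt continuous_const hgC.continuous).measurableSet]
      rfl
  have hwt : ∀ t, wtBoth G u a ε (flow e t p) =
      ENNReal.ofReal |deriv g t| * ENNReal.ofReal ((ε + -a (c t) / c t) / N) := fun t => by
    simp only [wtBoth, pairW, hN' t, hdg, ofReal_abs_eq, add_mul, c]
  have hhalf : ∀ (f : (Fin n → ℝ) → (Fin n → ℝ) → ℝ) (x : ℝ),
      ENNReal.ofReal (s ^ (n - 1)) * halfInt G e s f (flow e x p) =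
        ∫⁻ y in Ioi x, ENNReal.ofReal (s ^ (n - 1)) *
          (ENNReal.ofReal (f (line e p x) (line e p y)) *
            ENNReal.ofReal (sn s ((y - x) * N) ^ (n - 1) * N)) := by
    intro f x
    rw [halfInt, ← lintegral_const_mul' _ _ ENNReal.ofReal_ne_top, setLIntegral_Ioi_shift _ x]
    refine lintegral_congr fun t => ?_
    rw [hN' x, add_sub_cancel_left]
    congr 3
    show f (flow e x p).1 (flow e t (flow e x p)).1 = f (flow e x p).1 (flow e (x + t) p).1
    rw [hcomp]
  have hgeo : ∀ x y, x < y →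
      Real.sqrt (2 * D (line e p x) (line e p y)) = (y - x) * N ∧
      Dir.scos G D u (line e p y) (line e p x) = deriv g x / (k x * N) ∧
      Dir.scos G D u (line e p x) (line e p y) = -deriv g y / (k y * N) := by
    intro x y hxy
    have := scos_line hpin h he u (flow e x p) (sub_pos.2 hxy)
    rw [hN' x, hcomp, add_sub_cancel] at this
    have e2 : line e (flow e x p) (y - x) = line e p y := by
      show (flow e (y - x) (flow e x p)).1 = (flow e y p).1
      rw [hcomp, add_sub_cancel]
    rw [e2] at this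
    rw [hdg, hdg]
    exact this
  have hpos : ∀ x y, x < y → deriv g x ≠ 0 → deriv g y ≠ 0 → ∀ q : ℝ, (q = 1 ∨ q = -1) →
      ENNReal.ofReal |deriv g x| * (ENNReal.ofReal |deriv g y| * ENNReal.ofReal (q * Ψ x y)) =
        ENNReal.ofReal (s ^ (n - 1)) *
          (ENNReal.ofReal (q * pairK G D u K s ε (line e p x) (line e p y)) *
            ENNReal.ofReal (sn s ((y - x) * N) ^ (n - 1) * N)) := by
    intro x y hxy hx hy q _
    obtain ⟨g1, g2, g3⟩ := hgeo x y hxy
    have kx : 0 < k x := pos_of_mul_pos_left ((abs_pos.2 hx).trans_le (hdle x)) hN0.le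
    have ky : 0 < k y := pos_of_mul_pos_left ((abs_pos.2 hy).trans_le (hdle y)) hN0.le
    have hsn : 0 ≤ sn s ((y - x) * N) ^ (n - 1) * N :=
      mul_nonneg (pow_nonneg (Bend.sn_pos s (mul_pos (sub_pos.2 hxy) hN0)).le _) hN0.le
    rw [← ENNReal.ofReal_mul' hsn, ← ENNReal.ofReal_mul (pow_nonneg hs.le _),
      ← ENNReal.ofReal_mul (abs_nonneg _), ← ENNReal.ofReal_mul (abs_nonneg _)]
    congr 1
    have := pair_units (k x) (k y) N s (deriv g x) (deriv g y)
      (K (s * ((y - x) * N), deriv g x / (k x * N), -deriv g y / (k y * N)) + ε)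
      ((y - x) * N) kx ky hN0 hx hy hs (n - 1)
    rw [pairK, g1, g2, g3, hΨeq, min_eq_left hxy.le, max_eq_right hxy.le,
      abs_of_pos (sub_pos.2 hxy), phiK, show s * N * (y - x) = s * ((y - x) * N) by ring]
    linear_combination q * this
  have hneg : ∫⁻ x, ENNReal.ofReal (s ^ (n - 1)) *
      halfInt G e s (fun x y => -pairK G D u K s ε x y) (flow e x p) ≤
        ordInt g fun x y => -Ψ x y := by
    refine lintegral_mono fun x => ?_
    rw [hhalf]
    refine setLIntegral_mono' measurableSet_Ioi fun y hy => ?_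
    by_cases hcrit : deriv g x = 0 ∨ deriv g y = 0
    · obtain ⟨-, g2, g3⟩ := hgeo x y hy
      have := pairK_nonneg_of_crit h hu hs.le hT hG (line e p x) (line e p y)
        (hcrit.imp (fun h0 => by simp [g2, h0]) fun h0 => by simp [g3, h0])
      rw [ENNReal.ofReal_of_nonpos (neg_nonpos.2 this), zero_mul, mul_zero]
      exact zero_le
    · rw [not_or] at hcrit
      have := hpos x y hy hcrit.1 hcrit.2 (-1) (Or.inr rfl)
      simp only [neg_one_mul] at this
      exact this.symm.le
  have hposI : ordInt g Ψ ≤ ∫⁻ x, ENNReal.ofReal (s ^ (n - 1)) *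
      halfInt G e s (pairK G D u K s ε) (flow e x p) := by
    refine lintegral_mono fun x => ?_
    rw [hhalf]
    refine setLIntegral_mono' measurableSet_Ioi fun y hy => ?_
    by_cases hcrit : deriv g x = 0 ∨ deriv g y = 0
    · rcases hcrit with h0 | h0 <;> simp [h0]
    · rw [not_or] at hcrit
      have := hpos x y hy hcrit.1 hcrit.2 1 (Or.inl rfl)
      simp only [one_mul] at this
      exact this.le
  rw [lintegral_add_right _ (hOm.const_mul _), eO]
  refine le_trans (add_le_add hneg le_rfl) (key.trans ?_)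
  rw [lintegral_add_right' _ ?_]
  · exact add_le_add hposI (le_of_eq (lintegral_congr fun t => (hwt t).symm))
  · simp only [hwt]
    exact ((measurable_deriv g).abs.ennreal_ofReal.mul hwm.ennreal_ofReal).aemeasurable

end Vale.Agent.P219.CH.Relax.Strict
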